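import Mathlib
import Vale.Agent.Lib.P162.Defs

namespace Vale.Agent.Lib.P162.H81

open Finset BigOperators

/-- Independence of distinct coordinates of a uniform coin vector: for an injective choice
`i` of `k` coordinates, the sum over all coin vectors of a product of functions of the chosen
coordinates factorizes. -/
theorem sum_prod_coords {ι : Type*} [Fintype ι] [DecidableEq ι] (k : ℕ) (i : Fin k → ι)
    (hi : Function.Injective i) (g : Fin k → Bool → ℝ) :
    ∑ c : ι → Bool, ∏ j, g j (c (i j))
      = 2 ^ (Fintype.card ι - k) * ∏ j, (g j true + g j false) := by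
  classical
  set G : ι → Bool → ℝ := fun a b => ∏ j, if i j = a then g j b else 1 with hG
  have h1 : ∀ c : ι → Bool, ∏ j, g j (c (i j)) = ∏ a, G a (c a) := by
    intro c
    simp only [hG]
    rw [Finset.prod_comm]
    refine Finset.prod_congr rfl fun j _ => ?_
    rw [Finset.prod_ite_eq]
    simp
  have h2 : ∑ c : ι → Bool, ∏ a, G a (c a) = ∏ a, ∑ b, G a b := by
    have hps := Finset.prod_univ_sum (fun _ : ι => (univ : Finset Bool)) (fun a b => G a b)
    rw [hps, Fintype.piFinset_univ]
  have h3 : ∀ j b, G (i j) b = g j b := by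
    intro j b
    simp only [hG]
    have hite : ∀ j', (if i j' = i j then g j' b else 1) = if j' = j then g j' b else 1 := by
      intro j'
      by_cases hjj : j' = j
      · subst hjj; simp
      · have hne : i j' ≠ i j := fun h => hjj (hi h)
        simp [hjj, hne]
    simp only [hite]
    rw [Finset.prod_ite_eq']
    simp
  have h4 : ∀ a, a ∉ univ.image i → ∀ b, G a b = 1 := by
    intro a ha b
    simp only [hG]
    refine Finset.prod_eq_one fun j _ => ?_
    have hne : i j ≠ a := fun h => ha (by rw [← h]; exact mem_image_of_mem i (mem_univ j))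
    simp [hne]
  rw [Finset.sum_congr rfl fun c _ => h1 c, h2]
  rw [← Finset.prod_mul_prod_compl (univ.image i)]
  rw [Finset.prod_image (fun a _ b _ hab => hi hab)]
  have h5 : ∏ j, ∑ b, G (i j) b = ∏ j, (g j true + g j false) := by
    refine Finset.prod_congr rfl fun j _ => ?_
    rw [Fintype.sum_bool, h3, h3]
  have h6 : ∏ a ∈ (univ.image i)ᶜ, ∑ b, G a b = 2 ^ (Fintype.card ι - k) := by
    have h2' : ∀ a ∈ (univ.image i)ᶜ, ∑ b, G a b = 2 := by
      intro a ha
      rw [Finset.mem_compl] at ha
      rw [Fintype.sum_bool, h4 a ha, h4 a ha]; norm_num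
    rw [Finset.prod_congr rfl h2', Finset.prod_const, Finset.card_compl,
      Finset.card_image_of_injective _ hi, Finset.card_univ, Fintype.card_fin]
  rw [h5, h6, mul_comm]

/-- Cards whose coins are pairwise distinct move independently: off the bad set the one-step
law of `k` tracked cards is the product of the free one-card kernels. -/
theorem stepProb_free (h k : ℕ) [NeZero h] (z y : Fin k → ZMod (2 * h)) (hz : ¬ bad h k z) :
    stepProb h k z y = Wk h k z y := by
  classical
  have hi : Function.Injective (fun j => (ZMod.cast (z j) : ZMod h)) := by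
    intro j j' hjj
    by_contra hne
    exact hz ⟨j, j', hne, hjj⟩
  have hk : k ≤ h := by
    have hc := Fintype.card_le_of_injective _ hi
    simpa [ZMod.card] using hc
  set g : Fin k → Bool → ℝ := fun j b =>
    if 2 * z j + (if xor (decide (h ≤ (z j).val)) b then 1 else 0) = y j then (1 : ℝ) else 0
    with hg
  have hcard : ((univ.filter fun c : ZMod h → Bool => ∀ j, move h c (z j) = y j).card : ℝ)
      = ∑ c : ZMod h → Bool, ∏ j, g j (c (ZMod.cast (z j))) := by
    rw [Finset.card_filter]
    push_cast
    refine Finset.sum_congr rfl fun c _ => ?_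
    simp only [hg]
    rw [Finset.prod_boole]
    simp [move]
  have hW : ∀ j, g j true + g j false = 2 * Wmat h (z j) (y j) := by
    intro j
    have hfact : Fact (1 < 2 * h) := ⟨by have := NeZero.pos h; omega⟩
    have h10 : (1 : ZMod (2 * h)) ≠ 0 := one_ne_zero
    simp only [hg, Wmat]
    cases decide (h ≤ (z j).val) <;>
      by_cases h1 : y j = 2 * z j <;> by_cases h2 : y j = 2 * z j + 1 <;>
      simp [h1, h2, h10, eq_comm]
  unfold stepProb Wk
  rw [hcard, sum_prod_coords k _ hi g, ZMod.card]
  simp only [hW]
  rw [Finset.prod_mul_distrib, Finset.prod_const, Finset.card_univ, Fintype.card_fin]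
  have hpow : (2 : ℝ) ^ h = 2 ^ (h - k) * 2 ^ k := by rw [← pow_add, Nat.sub_add_cancel hk]
  rw [hpow]
  field_simp

end Vale.Agent.Lib.P162.H81
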