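import Mathlib
import Vale.Agent.Lib.P162.Defs
import Vale.Agent.Lib.P162.RDefs

namespace Vale.Agent.Lib.P162.H81

open Finset BigOperators

/-- The l1 distance between the uniform law on all `2 * h` positions and the uniform law on
the positions not occupied by `j` distinct cards is `2 j / (2 h)`. -/
theorem off_occ_tv (h j : ℕ) [NeZero h] (v : Fin j → ZMod (2 * h)) (hv : Function.Injective v)
    (hj : j < 2 * h) :
    ∑ q : ZMod (2 * h),
        |1 / (2 * h : ℝ) - (if ∀ i, q ≠ v i then 1 / ((2 * h : ℝ) - j) else 0)|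
      = 2 * (j : ℝ) / (2 * h : ℝ) := by
  classical
  have hh : 0 < h := Nat.pos_of_ne_zero (NeZero.ne h)
  have hh' : (0 : ℝ) < h := by exact_mod_cast hh
  have hn : (0 : ℝ) < 2 * h := by positivity
  have hjn : (j : ℝ) < 2 * h := by exact_mod_cast hj
  have hj0 : (0 : ℝ) ≤ j := Nat.cast_nonneg j
  have hterm : ∀ q : ZMod (2 * h),
      |1 / (2 * h : ℝ) - (if ∀ i, q ≠ v i then 1 / ((2 * h : ℝ) - j) else 0)|
        = if ∀ i, q ≠ v i then (1 / ((2 * h : ℝ) - j) - 1 / (2 * h : ℝ)) else 1 / (2 * h : ℝ) := by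
    intro q
    split_ifs with hq
    · rw [abs_sub_comm, abs_of_nonneg]
      have hle : 1 / (2 * h : ℝ) ≤ 1 / ((2 * h : ℝ) - j) :=
        one_div_le_one_div_of_le (by linarith) (by linarith)
      linarith
    · rw [sub_zero, abs_of_pos (by positivity)]
  rw [Finset.sum_congr rfl fun q _ => hterm q]
  rw [Finset.sum_ite, Finset.sum_const, Finset.sum_const]
  have hcardO : (univ.filter fun q : ZMod (2 * h) => ¬ ∀ i, q ≠ v i).card = j := by
    have himg : (univ.filter fun q : ZMod (2 * h) => ¬ ∀ i, q ≠ v i) = univ.image v := by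
      ext q
      simp only [mem_filter, mem_univ, true_and, mem_image, not_forall, not_not]
      constructor
      · rintro ⟨i, hi⟩
        exact ⟨i, hi.symm⟩
      · rintro ⟨i, hi⟩
        exact ⟨i, hi.symm⟩
    rw [himg, Finset.card_image_of_injective _ hv, Finset.card_univ, Fintype.card_fin]
  have hcardP : (univ.filter fun q : ZMod (2 * h) => ∀ i, q ≠ v i).card = 2 * h - j := by
    have hsum := Finset.card_filter_add_card_filter_not
      (s := (univ : Finset (ZMod (2 * h)))) (fun q => ∀ i, q ≠ v i)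
    rw [hcardO, Finset.card_univ, ZMod.card] at hsum
    omega
  rw [hcardO, hcardP, nsmul_eq_mul, nsmul_eq_mul, Nat.cast_sub hj.le]
  push_cast
  have hne : (2 * h : ℝ) - j ≠ 0 := by linarith
  field_simp
  ring

end Vale.Agent.Lib.P162.H81
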