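import Mathlib
import Vale.Agent.Lib.P162.Defs
import Vale.Agent.Lib.P162.helper36.MoveInj

namespace Vale.Agent.Lib.P162.H81

open Finset BigOperators

/-- For fixed coins the shuffle is a bijection of the positions, so it carries the uniform law
on injective `k`-tuples to itself. -/
theorem unif_fixed_coins (h k : ℕ) [NeZero h] (c : ZMod h → Bool) (y : Fin k → ZMod (2 * h)) :
    ∑ z : Fin k → ZMod (2 * h),
        unifInj h k z * (if ∀ j, move h c (z j) = y j then (1 : ℝ) else 0) = unifInj h k y := by
  classical
  have hbij : Function.Bijective (move h c) :=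
    (Vale.Agent.Lib.P162.H36.move_injective h c).bijective_of_finite
  set e : ZMod (2 * h) ≃ ZMod (2 * h) := Equiv.ofBijective (move h c) hbij with he
  have hemove : ∀ p, e p = move h c p := fun p => rfl
  set z0 : Fin k → ZMod (2 * h) := fun j => e.symm (y j) with hz0
  have hiff : ∀ z : Fin k → ZMod (2 * h), (∀ j, move h c (z j) = y j) ↔ z = z0 := by
    intro z
    constructor
    · intro hz
      funext j
      have h1 : e.symm (y j) = z j := by
        rw [← hz j, ← hemove]
        exact e.symm_apply_apply (z j)
      exact h1.symm
    · intro hz j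
      rw [hz, ← hemove]
      exact e.apply_symm_apply (y j)
  have hinj : Function.Injective z0 ↔ Function.Injective y := by
    have hcomp : z0 = e.symm ∘ y := rfl
    rw [hcomp]
    exact Equiv.comp_injective y e.symm
  rw [Finset.sum_eq_single z0]
  · rw [if_pos ((hiff z0).2 rfl), mul_one]
    unfold unifInj
    simp only [hinj]
  · intro z _ hz
    rw [if_neg (fun hh => hz ((hiff z).1 hh)), mul_zero]
  · intro hz
    exact absurd (mem_univ z0) hz

/-- The uniform law on injective `k`-tuples of positions is stationary for the `k`-card
kernel of the Thorp shuffle. -/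
theorem unif_stationary (h k : ℕ) [NeZero h] (y : Fin k → ZMod (2 * h)) :
    ∑ z, unifInj h k z * Kmat h k z y = unifInj h k y := by
  classical
  have hK : ∀ z : Fin k → ZMod (2 * h), Kmat h k z y
      = (∑ c : ZMod h → Bool, if ∀ j, move h c (z j) = y j then (1 : ℝ) else 0) / 2 ^ h := by
    intro z
    show stepProb h k z y = _
    unfold stepProb
    rw [Finset.card_filter]
    push_cast
    rfl
  have hswap : ∑ z : Fin k → ZMod (2 * h), unifInj h k z * Kmat h k z y
      = (∑ c : ZMod h → Bool, ∑ z : Fin k → ZMod (2 * h),
          unifInj h k z * (if ∀ j, move h c (z j) = y j then (1 : ℝ) else 0)) / 2 ^ h := by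
    rw [Finset.sum_comm, Finset.sum_div]
    refine Finset.sum_congr rfl fun z _ => ?_
    rw [hK z, ← mul_div_assoc, Finset.mul_sum]
  rw [hswap]
  simp only [unif_fixed_coins]
  rw [Finset.sum_const, Finset.card_univ, Fintype.card_fun, Fintype.card_bool, ZMod.card,
    nsmul_eq_mul]
  push_cast
  field_simp

end Vale.Agent.Lib.P162.H81
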